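import Vale.Agent.P066.Lab.H180.Asym
import Vale.Agent.P066.Lab.Kun
import Vale.Agent.P066.Lab.HN3

/-!
# Künneth formula for the Hilbert functions of antisymmetric parts

`hd (Sum.map cA cB) (JA ⊔ JB) m = ∑_{i+j=m} hd cA JA i * hd cB JB j` for homogeneous ideals.
-/

set_option autoImplicit false
set_option linter.unusedSectionVars false

open Finset MvPolynomial

namespace Vale.Agent.P066.Lab.HN4

open Vale.Agent.P066.Theta Vale.Agent.P066.Theta.H422
open Vale.Agent.P066.Lab.HN (PA hd Adapted exists_adapted)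

noncomputable section

section Hom

variable {k : Type} [Field k] {S : Type} [Fintype S] [DecidableEq S]

/-- homogeneous ideals -/
def HomI (J : Ideal (MvPolynomial S k)) : Prop :=
  ∀ f ∈ J, ∀ n : ℕ, homogeneousComponent n f ∈ J

theorem HomI.sup {J J' : Ideal (MvPolynomial S k)} (h : HomI J) (h' : HomI J') :
    HomI (J ⊔ J') := by
  intro f hf n
  obtain ⟨x, hx, y, hy, rfl⟩ := Submodule.mem_sup.1 hf
  rw [map_add]
  exact Ideal.add_mem _ (Ideal.mem_sup_left (h x hx n)) (Ideal.mem_sup_right (h' y hy n))

/-- ideals generated by homogeneous polynomials -/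
theorem homI_span {G : Set (MvPolynomial S k)} (hG : ∀ g ∈ G, ∃ n : ℕ, g.IsHomogeneous n) :
    HomI (Ideal.span G) := by
  intro f hf n
  refine Submodule.span_induction (p := fun f _ => ∀ n : ℕ, homogeneousComponent n f ∈
    Ideal.span G) ?_ ?_ ?_ ?_ hf n
  · intro g hg n
    obtain ⟨m, hm⟩ := hG g hg
    rw [homogeneousComponent_of_mem hm]
    split_ifs
    · exact Ideal.subset_span hg
    · exact Ideal.zero_mem _
  · intro n
    rw [map_zero]
    exact Ideal.zero_mem _
  · intro x y _ _ hx hy n
    rw [map_add]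
    exact Ideal.add_mem _ (hx n) (hy n)
  · intro a x _ hx n
    rw [smul_eq_mul, ← sum_homogeneousComponent a, Finset.sum_mul, map_sum]
    refine Ideal.sum_mem _ fun i _ => ?_
    rw [HN.hc_mul k (homogeneousComponent_isHomogeneous i a)]
    split_ifs
    · exact Ideal.mul_mem_left _ _ (hx _)
    · exact Ideal.zero_mem _

theorem HomI.map {T : Type} [Fintype T] [DecidableEq T] {J : Ideal (MvPolynomial S k)}
    (hJ : HomI J) (e : S → T) : HomI (J.map (rename (R := k) e)) := by
  have h : J.map (rename (R := k) e) = Ideal.span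
      {g | ∃ f ∈ J, ∃ n : ℕ, f.IsHomogeneous n ∧ g = rename e f} := by
    refine le_antisymm (Ideal.map_le_iff_le_comap.2 fun f hf => ?_) (Ideal.span_le.2 ?_)
    · rw [Ideal.mem_comap, ← sum_homogeneousComponent f, map_sum]
      exact Ideal.sum_mem _ fun i _ => Ideal.subset_span
        ⟨_, hJ f hf i, i, homogeneousComponent_isHomogeneous i f, rfl⟩
    · rintro _ ⟨f, hf, _, _, rfl⟩
      exact Ideal.mem_map_of_mem _ hf
  rw [h]
  refine homI_span ?_
  rintro _ ⟨f, _, n, hn, rfl⟩
  exact ⟨n, hn.rename_isHomogeneous⟩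

variable (k) in
theorem homI_J0 (a : S → S → ℕ) (θ : S → ℤ) (X : Finset S) : HomI (J0 k a θ X) := by
  refine homI_span ?_
  rintro _ ⟨Y, _, _, rfl⟩
  exact ⟨_, HN.QP_hom k a _⟩

variable (k) in
theorem homI_Jp (a : S → S → ℕ) (θ : S → ℤ) (X : Finset S) : HomI (Jp k a θ X) := by
  refine homI_span ?_
  rintro _ ⟨Y, _, _, _, rfl⟩
  exact ⟨_, HN.QP_hom k a _⟩

variable (k) in
theorem homI_Jm (a : S → S → ℕ) (θ : S → ℤ) (X : Finset S) : HomI (Jm k a θ X) := by
  refine homI_span ?_
  rintro _ ⟨Y, _, _, _, rfl⟩
  exact ⟨_, HN.QP_hom k a _⟩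

/-- adapted bases of the different degrees are jointly independent modulo a homogeneous ideal -/
theorem linearIndependent_sigma {J : Ideal (MvPolynomial S k)} (hJ : HomI J) {κ : ℕ → Type}
    (b : ∀ j, κ j → MvPolynomial S k) (hb : ∀ j i, (b j i).IsHomogeneous j)
    (hind : ∀ j, LinearIndependent k fun i => (J.restrictScalars k).mkQ (b j i)) :
    LinearIndependent k fun x : (Σ j, κ j) => Ideal.Quotient.mk J (b x.1 x.2) := by
  classical
  rw [linearIndependent_iff']
  rintro s g hsum ⟨j₀, i₀⟩ hx₀
  obtain ⟨φ, hφ1, hφ0⟩ := exists_dual (hind j₀) i₀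
  let l : MvPolynomial S k →ₗ[k] k :=
    φ.comp ((J.restrictScalars k).mkQ.comp (homogeneousComponent j₀))
  have hl : ∀ f ∈ J, l f = 0 := by
    intro f hf
    have h1 : (J.restrictScalars k).mkQ (homogeneousComponent j₀ f) = 0 :=
      (Submodule.Quotient.mk_eq_zero _).2 (hJ f hf j₀)
    simp only [l, LinearMap.comp_apply, h1, map_zero]
  have hmem : (∑ x ∈ s, g x • b x.1 x.2) ∈ J := by
    rw [← Ideal.Quotient.eq_zero_iff_mem, map_sum, ← hsum]
    refine Finset.sum_congr rfl fun f _ => ?_
    exact map_smul (Ideal.Quotient.mkₐ k J) (g f) (b f.1 f.2)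
  have h0 := hl _ hmem
  rw [map_sum, Finset.sum_eq_single_of_mem _ hx₀] at h0
  · rw [map_smul] at h0
    have h1 : l (b j₀ i₀) = 1 := by
      simp only [l, LinearMap.comp_apply]
      rw [homogeneousComponent_of_mem (hb j₀ i₀), if_pos rfl, hφ1]
    rwa [h1, smul_eq_mul, mul_one] at h0
  · rintro ⟨j, i⟩ _ hne
    rw [map_smul]
    have h1 : l (b j i) = 0 := by
      simp only [l, LinearMap.comp_apply]
      by_cases hj : j = j₀
      · subst hj
        rw [homogeneousComponent_of_mem (hb j i), if_pos rfl]
        refine hφ0 i ?_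
        rintro rfl
        exact hne rfl
      · rw [homogeneousComponent_of_mem (hb j i), if_neg (Ne.symm hj), map_zero, map_zero]
    rw [h1, smul_zero]

end Hom

section Kun

variable {k : Type} [Field k] {A B : Type} [Fintype A] [DecidableEq A] [Fintype B] [DecidableEq B]

/-- the sum of the two ideals -/
def JS (JA : Ideal (MvPolynomial A k)) (JB : Ideal (MvPolynomial B k)) :
    Ideal (MvPolynomial (A ⊕ B) k) :=
  JA.map (rename (R := k) (Sum.inl : A → A ⊕ B)) ⊔ JB.map (rename (R := k) (Sum.inr : B → A ⊕ B))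

theorem linearIndependent_rename {T : Type} {e : A → T} {r : MvPolynomial T k →ₐ[k] MvPolynomial A k}
    (hr : ∀ f, r (rename e f) = f) {JA : Ideal (MvPolynomial A k)} {κ : Type}
    {v : κ → MvPolynomial A k} (hv : LinearIndependent k fun i => Ideal.Quotient.mk JA (v i)) :
    LinearIndependent k fun i => Ideal.Quotient.mk
      (Ideal.span ((rename (R := k) e) '' (JA : Set (MvPolynomial A k)))) (rename e (v i)) := by
  have hle : Ideal.span ((rename (R := k) e) '' (JA : Set (MvPolynomial A k))) ≤
      Ideal.comap r JA := by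
    rw [Ideal.span_le]
    rintro _ ⟨f, hf, rfl⟩
    rw [SetLike.mem_coe, Ideal.mem_comap, hr]
    exact hf
  refine LinearIndependent.of_comp (Ideal.quotientMapₐ JA r hle).toLinearMap ?_
  have h : (Ideal.quotientMapₐ JA r hle).toLinearMap ∘ (fun i => Ideal.Quotient.mk
      (Ideal.span ((rename (R := k) e) '' (JA : Set (MvPolynomial A k)))) (rename e (v i))) =
      fun i => Ideal.Quotient.mk JA (v i) := by
    funext i
    rw [Function.comp_apply]
    change Ideal.Quotient.mk JA (r (rename e (v i))) = _
    rw [hr]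
  rw [h]
  exact hv

theorem rename_mem_supported {T : Type} (e : A → T) (f : MvPolynomial A k) :
    rename e f ∈ supported k (Set.range e) := by
  classical
  rw [mem_supported]
  intro t ht
  have := vars_rename e f ht
  rw [mem_image] at this
  obtain ⟨s, _, rfl⟩ := this
  exact ⟨s, rfl⟩

/-- independence of products modulo the sum of the ideals -/
theorem linearIndependent_mul {JA : Ideal (MvPolynomial A k)} {JB : Ideal (MvPolynomial B k)}
    {κA κB : Type} {vA : κA → MvPolynomial A k} {vB : κB → MvPolynomial B k}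
    (hA : LinearIndependent k fun i => Ideal.Quotient.mk JA (vA i))
    (hB : LinearIndependent k fun i => Ideal.Quotient.mk JB (vB i)) :
    LinearIndependent k fun p : κA × κB =>
      Ideal.Quotient.mk (JS JA JB) (rename Sum.inl (vA p.1) * rename Sum.inr (vB p.2)) := by
  classical
  let rA : MvPolynomial (A ⊕ B) k →ₐ[k] MvPolynomial A k := aeval (Sum.elim X fun _ => 0)
  let rB : MvPolynomial (A ⊕ B) k →ₐ[k] MvPolynomial B k := aeval (Sum.elim (fun _ => 0) X)
  have hrA : ∀ f, rA (rename Sum.inl f) = f := by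
    intro f
    simp only [rA, aeval_rename]
    exact aeval_X_left_apply f
  have hrB : ∀ f, rB (rename Sum.inr f) = f := by
    intro f
    simp only [rB, aeval_rename]
    exact aeval_X_left_apply f
  let Bl : Bool → Set (A ⊕ B) := fun j => cond j (Set.range Sum.inl) (Set.range Sum.inr)
  let G : Bool → Set (MvPolynomial (A ⊕ B) k) := fun j =>
    cond j ((rename (R := k) (Sum.inl : A → A ⊕ B)) '' (JA : Set (MvPolynomial A k)))
      ((rename (R := k) (Sum.inr : B → A ⊕ B)) '' (JB : Set (MvPolynomial B k)))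
  let κ : Bool → Type := fun j => cond j κA κB
  let v : ∀ j, κ j → MvPolynomial (A ⊕ B) k := fun j =>
    match j with
    | true => fun i => rename Sum.inl (vA i)
    | false => fun i => rename Sum.inr (vB i)
  have hBl : Pairwise (Function.onFun Disjoint Bl) := by
    intro i j hij
    cases i <;> cases j
    · exact absurd rfl hij
    · simp only [Function.onFun, Bl, cond_true, cond_false]
      rw [Set.disjoint_left]
      rintro _ ⟨x, rfl⟩ ⟨y, hy⟩
      exact absurd hy (by simp)
    · simp only [Function.onFun, Bl, cond_true, cond_false]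
      rw [Set.disjoint_left]
      rintro _ ⟨x, rfl⟩ ⟨y, hy⟩
      exact absurd hy (by simp)
    · exact absurd rfl hij
  have hG : ∀ j, G j ⊆ supported k (Bl j) := by
    intro j
    cases j
    · rintro _ ⟨f, _, rfl⟩
      exact rename_mem_supported _ f
    · rintro _ ⟨f, _, rfl⟩
      exact rename_mem_supported _ f
  have hv : ∀ j i, v j i ∈ supported k (Bl j) := by
    intro j
    cases j
    · intro i
      exact rename_mem_supported _ _
    · intro i
      exact rename_mem_supported _ _
  have hind : ∀ j, LinearIndependent k (fun i => Ideal.Quotient.mk (Ideal.span (G j)) (v j i)) := by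
    intro j
    cases j
    · exact linearIndependent_rename hrB hB
    · exact linearIndependent_rename hrA hA
  have h := linearIndependent_prod hBl hG v hv hind
  let inj : κA × κB → ∀ j, κ j := fun p j =>
    match j with
    | true => p.1
    | false => p.2
  have hinj : Function.Injective inj := by
    intro p p' hpp
    exact Prod.ext (congrFun hpp true) (congrFun hpp false)
  have h2 := h.comp inj hinj
  have hJ : (⨆ j, Ideal.span (G j)) = JS JA JB := by
    rw [iSup_bool_eq]
    rfl
  have h3 : (fun p : κA × κB => Ideal.Quotient.mk (⨆ j, Ideal.span (G j))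
      (rename Sum.inl (vA p.1) * rename Sum.inr (vB p.2))) =
      (fun f : (∀ j, κ j) => Ideal.Quotient.mk (⨆ j, Ideal.span (G j)) (∏ j, v j (f j))) ∘ inj := by
    funext p
    rw [Function.comp_apply, Fintype.prod_bool]
  rw [← h3] at h2
  rw [hJ] at h2
  exact h2

theorem HomI.JS {JA : Ideal (MvPolynomial A k)} {JB : Ideal (MvPolynomial B k)} (hJA : HomI JA)
    (hJB : HomI JB) : HomI (JS JA JB) := (hJA.map _).sup (hJB.map _)

variable {I I' : Type} [Fintype I] [DecidableEq I] [Fintype I'] [DecidableEq I']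
  (cA : A → I) (cB : B → I')

/-- **(HN4) Künneth formula** -/
theorem hd_sum [CharZero k] {JA : Ideal (MvPolynomial A k)} {JB : Ideal (MvPolynomial B k)}
    (hJA : HomI JA) (hJB : HomI JB) (m : ℕ) :
    hd k (Sum.map cA cB) (JS JA JB) m =
      ∑ p ∈ antidiagonal m, hd k cA JA p.1 * hd k cB JB p.2 := by
  classical
  choose bA hbA using fun j => exists_adapted k cA JA j
  choose bB hbB using fun j => exists_adapted k cB JB j
  have hA := linearIndependent_sigma hJA bA (fun j i => ((hbA j).mem i).2) fun j => (hbA j).indep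
  have hB := linearIndependent_sigma hJB bB (fun j i => ((hbB j).mem i).2) fun j => (hbB j).indep
  have hAB := linearIndependent_mul hA hB
  let κ : Type := Σ p : {p // p ∈ antidiagonal m}, Fin (hd k cA JA p.1.1) × Fin (hd k cB JB p.1.2)
  let w : κ → MvPolynomial (A ⊕ B) k := fun x =>
    rename Sum.inl (bA x.1.1.1 x.2.1) * rename Sum.inr (bB x.1.1.2 x.2.2)
  let inj : κ → (Σ j, Fin (hd k cA JA j)) × (Σ j, Fin (hd k cB JB j)) := fun x =>
    (⟨x.1.1.1, x.2.1⟩, ⟨x.1.1.2, x.2.2⟩)
  have hinj : Function.Injective inj := by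
    rintro ⟨⟨⟨p, q⟩, hp⟩, i, j⟩ ⟨⟨⟨p', q'⟩, hp'⟩, i', j'⟩ h
    simp only [inj, Prod.mk.injEq, Sigma.mk.injEq] at h
    obtain ⟨⟨rfl, h1⟩, rfl, h2⟩ := h
    cases h1
    cases h2
    rfl
  have hind := hAB.comp inj hinj
  have had : Adapted k (Sum.map cA cB) (JS JA JB) m w := by
    refine ⟨?_, ?_, ?_⟩
    · rintro ⟨⟨p, hp⟩, i, j⟩
      exact mul_mem_AltH k cA cB ((hbA p.1).mem i) ((hbB p.2).mem j)
        (HasAntidiagonal.mem_antidiagonal.1 hp)
    · exact hind
    · have key : ∀ f ∈ PA k (Sum.map cA cB) m, f ∈ Submodule.span k (Set.range w) ⊔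
          (JS JA JB).restrictScalars k := by
        intro f hf
        refine (Submodule.span_le.2 ?_) (AltH_le_span k cA cB m hf)
        rintro _ ⟨p, hp, x, hx, y, hy, rfl⟩
        obtain ⟨x', hx', hxx⟩ := (hbA p.1).span x hx
        obtain ⟨y', hy', hyy⟩ := (hbB p.2).span y hy
        have h1 : rename Sum.inl x' * rename Sum.inr y' ∈ Submodule.span k (Set.range w) := by
          have h2 : rename Sum.inl x' ∈ Submodule.span k
              ((rename (R := k) (Sum.inl : A → A ⊕ B)).toLinearMap '' Set.range (bA p.1)) := by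
            rw [← Submodule.map_span]
            exact Submodule.mem_map_of_mem hx'
          have h3 : rename Sum.inr y' ∈ Submodule.span k
              ((rename (R := k) (Sum.inr : B → A ⊕ B)).toLinearMap '' Set.range (bB p.2)) := by
            rw [← Submodule.map_span]
            exact Submodule.mem_map_of_mem hy'
          have h4 := Submodule.mul_mem_mul h2 h3
          rw [Submodule.span_mul_span] at h4
          refine Submodule.span_mono ?_ h4
          rintro _ ⟨_, ⟨_, ⟨i, rfl⟩, rfl⟩, _, ⟨_, ⟨j, rfl⟩, rfl⟩, rfl⟩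
          exact ⟨⟨⟨p, hp⟩, i, j⟩, rfl⟩
        have h5 : rename Sum.inl x * rename Sum.inr y - rename Sum.inl x' * rename Sum.inr y' ∈
            JS JA JB := by
          have h6 : rename Sum.inl x * rename Sum.inr y - rename Sum.inl x' * rename Sum.inr y' =
              rename Sum.inl (x - x') * rename Sum.inr y +
                rename Sum.inl x' * rename Sum.inr (y - y') := by
            rw [map_sub, map_sub]
            ring
          rw [h6]
          refine Ideal.add_mem _ (Ideal.mul_mem_right _ _ ?_) (Ideal.mul_mem_left _ _ ?_)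
          · exact Ideal.mem_sup_left (Ideal.mem_map_of_mem _ hxx)
          · exact Ideal.mem_sup_right (Ideal.mem_map_of_mem _ hyy)
        rw [SetLike.mem_coe]
        have h7 : rename Sum.inl x * rename Sum.inr y = rename Sum.inl x' * rename Sum.inr y' +
            (rename Sum.inl x * rename Sum.inr y - rename Sum.inl x' * rename Sum.inr y') := by
          ring
        rw [h7]
        exact Submodule.add_mem _ (Submodule.mem_sup_left h1) (Submodule.mem_sup_right h5)
      intro f hf
      obtain ⟨g, hg, h, hh, rfl⟩ := Submodule.mem_sup.1 (key f hf)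
      exact ⟨g, hg, by rw [add_sub_cancel_left]; exact hh⟩
  rw [had.card_eq]
  simp only [κ, Fintype.card_sigma, Fintype.card_prod, Fintype.card_fin]
  exact Finset.sum_coe_sort (antidiagonal m) fun p => hd k cA JA p.1 * hd k cB JB p.2

/-- Künneth formula for three factors -/
theorem hd_sum3 [CharZero k] {D J : Type} [Fintype D] [DecidableEq D] [Fintype J] [DecidableEq J]
    (cD : D → J) {JA : Ideal (MvPolynomial A k)} {JB : Ideal (MvPolynomial B k)}
    {JD : Ideal (MvPolynomial D k)} (hJA : HomI JA) (hJB : HomI JB) (hJD : HomI JD) (m : ℕ) :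
    hd k (Sum.map cA (Sum.map cB cD)) (Lab.HN4.JS JA (Lab.HN4.JS JB JD)) m =
      ∑ p ∈ antidiagonal m, ∑ q ∈ antidiagonal p.2,
        hd k cA JA p.1 * (hd k cB JB q.1 * hd k cD JD q.2) := by
  rw [hd_sum cA (Sum.map cB cD) hJA (hJB.JS hJD)]
  refine Finset.sum_congr rfl fun p _ => ?_
  rw [hd_sum cB cD hJB hJD, Finset.mul_sum]

end Kun

end

end Vale.Agent.P066.Lab.HN4
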