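import Mathlib

/-!
# Counting `d`-subsets and `d`-multisets of `ℕ` by their sum

`nSet d n` = number of `d`-element subsets of `ℕ` with sum `n`; `nMul d n` = number of `d`-element
multisets of naturals with sum `n`.  Generating functions:
`gfSet (d+1) (1 - X^{d+1}) = X^d gfSet d`, `gfMul (d+1) (1 - X^{d+1}) = gfMul d`.
-/

set_option autoImplicit false

open Finset

namespace Vale.Agent.P066.Lab

/-- the `d`-element subsets of `ℕ` with sum `n` -/
def setFam (d n : ℕ) : Finset (Finset ℕ) :=
  ((range (n + 1)).powersetCard d).filter fun A => ∑ i ∈ A, i = n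

theorem mem_setFam {d n : ℕ} {A : Finset ℕ} : A ∈ setFam d n ↔ A.card = d ∧ ∑ i ∈ A, i = n := by
  unfold setFam
  rw [mem_filter, mem_powersetCard]
  constructor
  · rintro ⟨⟨_, h2⟩, h3⟩
    exact ⟨h2, h3⟩
  · rintro ⟨h2, h3⟩
    refine ⟨⟨fun i hi => ?_, h2⟩, h3⟩
    rw [mem_range, Nat.lt_succ_iff, ← h3]
    exact Finset.single_le_sum (f := fun i : ℕ => i) (fun _ _ => Nat.zero_le _) hi

/-- number of `d`-element subsets of `ℕ` with sum `n` -/
def nSet (d n : ℕ) : ℕ := (setFam d n).card

theorem nSet_eq_card {d n : ℕ} (T : Finset (Finset ℕ))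
    (hT : ∀ A, A ∈ T ↔ A.card = d ∧ ∑ i ∈ A, i = n) : T.card = nSet d n := by
  have : T = setFam d n := by
    ext A
    rw [hT, mem_setFam]
  rw [this, nSet]

theorem nSet_eq_natCard (d n : ℕ) :
    Nat.card {A : Finset ℕ // A.card = d ∧ ∑ i ∈ A, i = n} = nSet d n := by
  classical
  have e : {A : Finset ℕ // A.card = d ∧ ∑ i ∈ A, i = n} ≃ setFam d n :=
    Equiv.subtypeEquivRight fun A => mem_setFam.symm
  rw [Nat.card_congr e, Nat.card_eq_fintype_card, Fintype.card_coe, nSet]

/-- the `d`-element multisets of naturals with sum `n` -/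
def mulFam (d n : ℕ) : Finset (Multiset ℕ) :=
  (((range (n + 1)).sym d).filter fun m : Sym ℕ d => (m : Multiset ℕ).sum = n).map
    ⟨fun m : Sym ℕ d => (m : Multiset ℕ), Subtype.val_injective⟩

theorem mem_mulFam {d n : ℕ} {M : Multiset ℕ} :
    M ∈ mulFam d n ↔ Multiset.card M = d ∧ M.sum = n := by
  unfold mulFam
  rw [mem_map]
  constructor
  · rintro ⟨m, hm, rfl⟩
    rw [mem_filter] at hm
    exact ⟨m.2, hm.2⟩
  · rintro ⟨h1, h2⟩
    refine ⟨Sym.mk M h1, ?_, rfl⟩
    rw [mem_filter, Finset.mem_sym_iff]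
    refine ⟨fun i hi => ?_, h2⟩
    rw [mem_range, Nat.lt_succ_iff, ← h2]
    exact Multiset.le_sum_of_mem hi

/-- number of `d`-element multisets of naturals with sum `n` -/
def nMul (d n : ℕ) : ℕ := (mulFam d n).card

theorem nMul_eq_card {d n : ℕ} (T : Finset (Multiset ℕ))
    (hT : ∀ M, M ∈ T ↔ Multiset.card M = d ∧ M.sum = n) : T.card = nMul d n := by
  have : T = mulFam d n := by
    ext A
    rw [hT, mem_mulFam]
  rw [this, nMul]

theorem nMul_eq_natCard (d n : ℕ) :
    Nat.card {M : Multiset ℕ // Multiset.card M = d ∧ M.sum = n} = nMul d n := by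
  classical
  have e : {M : Multiset ℕ // Multiset.card M = d ∧ M.sum = n} ≃ mulFam d n :=
    Equiv.subtypeEquivRight fun A => mem_mulFam.symm
  rw [Nat.card_congr e, Nat.card_eq_fintype_card, Fintype.card_coe, nMul]

/-! ### recursions -/

/-- shift by one -/
def shF (A : Finset ℕ) : Finset ℕ := A.map ⟨Nat.succ, Nat.succ_injective⟩

theorem zero_notMem_shF (A : Finset ℕ) : 0 ∉ shF A := by
  simp [shF]

theorem card_shF (A : Finset ℕ) : (shF A).card = A.card := Finset.card_map _

theorem sum_shF (A : Finset ℕ) : ∑ i ∈ shF A, i = ∑ i ∈ A, i + A.card := by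
  unfold shF
  rw [Finset.sum_map]
  simp [Finset.sum_add_distrib]

theorem shF_injective : Function.Injective shF := Finset.map_injective _

theorem exists_shF {A : Finset ℕ} (h : 0 ∉ A) : ∃ A', shF A' = A := by
  refine ⟨A.image Nat.pred, ?_⟩
  unfold shF
  ext i
  simp only [mem_map, mem_image, Function.Embedding.coeFn_mk]
  constructor
  · rintro ⟨j, ⟨l, hl, rfl⟩, rfl⟩
    have : l ≠ 0 := fun h0 => h (h0 ▸ hl)
    rwa [Nat.succ_pred_eq_of_ne_zero this]
  · intro hi
    have : i ≠ 0 := fun h0 => h (h0 ▸ hi)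
    exact ⟨i.pred, ⟨i, hi, rfl⟩, Nat.succ_pred_eq_of_ne_zero this⟩

theorem nSet_zero (n : ℕ) : nSet 0 n = if n = 0 then 1 else 0 := by
  unfold nSet
  split_ifs with h
  · subst h
    rw [card_eq_one]
    refine ⟨∅, ?_⟩
    ext A
    rw [mem_setFam, mem_singleton, card_eq_zero]
    constructor
    · exact fun h => h.1
    · rintro rfl
      simp
  · rw [card_eq_zero, eq_empty_iff_forall_notMem]
    intro A hA
    rw [mem_setFam, card_eq_zero] at hA
    obtain ⟨rfl, h2⟩ := hA
    simp at h2
    exact h h2.symm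

theorem card_filter_zero_mem (d n : ℕ) :
    ((setFam (d + 1) n).filter fun A => 0 ∈ A).card = if d ≤ n then nSet d (n - d) else 0 := by
  split_ifs with h
  · have : (setFam (d + 1) n).filter (fun A => 0 ∈ A) =
        (setFam d (n - d)).image fun A => insert 0 (shF A) := by
      ext A
      rw [mem_filter, mem_setFam, mem_image]
      constructor
      · rintro ⟨⟨h1, h2⟩, h3⟩
        obtain ⟨A', hA'⟩ := exists_shF (A := A.erase 0) (notMem_erase 0 A)
        have hA : insert 0 (shF A') = A := by rw [hA', insert_erase h3]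
        have hc : A'.card = d := by
          rw [← card_shF, hA', card_erase_of_mem h3, h1]
          rfl
        refine ⟨A', ?_, hA⟩
        rw [mem_setFam]
        refine ⟨hc, ?_⟩
        rw [← hA, sum_insert (zero_notMem_shF _), sum_shF, hc, zero_add] at h2
        omega
      · rintro ⟨A', hA', rfl⟩
        rw [mem_setFam] at hA'
        refine ⟨⟨?_, ?_⟩, mem_insert_self _ _⟩
        · rw [card_insert_of_notMem (zero_notMem_shF _), card_shF, hA'.1]
        · rw [sum_insert (zero_notMem_shF _), sum_shF, hA'.1, hA'.2]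
          omega
    rw [this, card_image_of_injOn, nSet]
    intro A _ A' _ hAA
    apply shF_injective
    have h1 := congrArg (fun B : Finset ℕ => B.erase 0) hAA
    simpa [erase_insert (zero_notMem_shF A), erase_insert (zero_notMem_shF A')] using h1
  · rw [card_eq_zero, eq_empty_iff_forall_notMem]
    intro A hA
    rw [mem_filter, mem_setFam] at hA
    obtain ⟨⟨h1, h2⟩, h3⟩ := hA
    obtain ⟨A', hA'⟩ := exists_shF (A := A.erase 0) (notMem_erase 0 A)
    have hA : insert 0 (shF A') = A := by rw [hA', insert_erase h3]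
    have hc : A'.card = d := by
      rw [← card_shF, hA', card_erase_of_mem h3, h1]
      rfl
    rw [← hA, sum_insert (zero_notMem_shF _), sum_shF, hc, zero_add] at h2
    omega

theorem card_filter_zero_notMem (d n : ℕ) :
    ((setFam d n).filter fun A => 0 ∉ A).card = if d ≤ n then nSet d (n - d) else 0 := by
  split_ifs with h
  · have : (setFam d n).filter (fun A => 0 ∉ A) = (setFam d (n - d)).image shF := by
      ext A
      rw [mem_filter, mem_setFam, mem_image]
      constructor
      · rintro ⟨⟨h1, h2⟩, h3⟩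
        obtain ⟨A', rfl⟩ := exists_shF h3
        rw [card_shF] at h1
        rw [sum_shF] at h2
        refine ⟨A', ?_, rfl⟩
        rw [mem_setFam]
        refine ⟨h1, ?_⟩
        omega
      · rintro ⟨A', hA', rfl⟩
        rw [mem_setFam] at hA'
        refine ⟨⟨?_, ?_⟩, zero_notMem_shF _⟩
        · rw [card_shF, hA'.1]
        · rw [sum_shF, hA'.1, hA'.2]
          omega
    rw [this, card_image_of_injective _ shF_injective, nSet]
  · rw [card_eq_zero, eq_empty_iff_forall_notMem]
    intro A hA
    rw [mem_filter, mem_setFam] at hA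
    obtain ⟨⟨h1, h2⟩, h3⟩ := hA
    obtain ⟨A', rfl⟩ := exists_shF h3
    rw [card_shF] at h1
    rw [sum_shF] at h2
    omega

/-- `F_{d+1} = q^d F_d + q^{d+1} F_{d+1}` -/
theorem nSet_succ (d n : ℕ) :
    nSet (d + 1) n = (if d ≤ n then nSet d (n - d) else 0) +
      if d + 1 ≤ n then nSet (d + 1) (n - (d + 1)) else 0 := by
  rw [← card_filter_zero_mem, ← card_filter_zero_notMem, nSet]
  exact (Finset.card_filter_add_card_filter_not _).symm

/-! multisets -/

theorem sum_map_succ (M : Multiset ℕ) :
    (M.map Nat.succ).sum = M.sum + Multiset.card M := by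
  induction M using Multiset.induction_on with
  | empty => simp
  | cons a M ih =>
    rw [Multiset.map_cons, Multiset.sum_cons, Multiset.sum_cons, ih, Multiset.card_cons]
    simp only [Nat.succ_eq_add_one]
    ring

theorem exists_map_succ {M : Multiset ℕ} (h : 0 ∉ M) : ∃ M', Multiset.map Nat.succ M' = M := by
  refine ⟨M.map Nat.pred, ?_⟩
  rw [Multiset.map_map]
  conv_rhs => rw [← Multiset.map_id M]
  refine Multiset.map_congr rfl fun i hi => ?_
  have : i ≠ 0 := fun h0 => h (h0 ▸ hi)
  exact Nat.succ_pred_eq_of_ne_zero this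

theorem nMul_zero (n : ℕ) : nMul 0 n = if n = 0 then 1 else 0 := by
  unfold nMul
  split_ifs with h
  · subst h
    rw [card_eq_one]
    refine ⟨0, ?_⟩
    ext A
    rw [mem_mulFam, mem_singleton, Multiset.card_eq_zero]
    constructor
    · exact fun h => h.1
    · rintro rfl
      simp
  · rw [card_eq_zero, eq_empty_iff_forall_notMem]
    intro A hA
    rw [mem_mulFam, Multiset.card_eq_zero] at hA
    obtain ⟨rfl, h2⟩ := hA
    simp at h2
    exact h h2.symm

theorem card_filter_zero_mem_mul (d n : ℕ) :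
    ((mulFam (d + 1) n).filter fun A => 0 ∈ A).card = nMul d n := by
  have : (mulFam (d + 1) n).filter (fun A => 0 ∈ A) =
      (mulFam d n).image fun A => 0 ::ₘ A := by
    ext A
    rw [mem_filter, mem_mulFam, mem_image]
    constructor
    · rintro ⟨⟨h1, h2⟩, h3⟩
      obtain ⟨A', rfl⟩ := Multiset.exists_cons_of_mem h3
      refine ⟨A', ?_, rfl⟩
      rw [mem_mulFam]
      rw [Multiset.card_cons] at h1
      rw [Multiset.sum_cons] at h2
      constructor <;> omega
    · rintro ⟨A', hA', rfl⟩
      rw [mem_mulFam] at hA'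
      refine ⟨⟨?_, ?_⟩, Multiset.mem_cons_self _ _⟩
      · rw [Multiset.card_cons, hA'.1]
      · rw [Multiset.sum_cons, hA'.2, zero_add]
  rw [this, card_image_of_injective, nMul]
  exact fun A A' h => (Multiset.cons_inj_right 0).1 h

theorem card_filter_zero_notMem_mul (d n : ℕ) :
    ((mulFam d n).filter fun A => 0 ∉ A).card = if d ≤ n then nMul d (n - d) else 0 := by
  split_ifs with h
  · have : (mulFam d n).filter (fun A => 0 ∉ A) =
        (mulFam d (n - d)).image (Multiset.map Nat.succ) := by
      ext A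
      rw [mem_filter, mem_mulFam, mem_image]
      constructor
      · rintro ⟨⟨h1, h2⟩, h3⟩
        obtain ⟨A', rfl⟩ := exists_map_succ h3
        rw [Multiset.card_map] at h1
        rw [sum_map_succ] at h2
        refine ⟨A', ?_, rfl⟩
        rw [mem_mulFam]
        refine ⟨h1, ?_⟩
        omega
      · rintro ⟨A', hA', rfl⟩
        rw [mem_mulFam] at hA'
        refine ⟨⟨?_, ?_⟩, ?_⟩
        · rw [Multiset.card_map, hA'.1]
        · rw [sum_map_succ, hA'.1, hA'.2]
          omega
        · simp
    rw [this, card_image_of_injective _ (Multiset.map_injective Nat.succ_injective), nMul]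
  · rw [card_eq_zero, eq_empty_iff_forall_notMem]
    intro A hA
    rw [mem_filter, mem_mulFam] at hA
    obtain ⟨⟨h1, h2⟩, h3⟩ := hA
    obtain ⟨A', rfl⟩ := exists_map_succ h3
    rw [Multiset.card_map] at h1
    rw [sum_map_succ] at h2
    omega

/-- `H_{d+1} = H_d + q^{d+1} H_{d+1}` -/
theorem nMul_succ (d n : ℕ) :
    nMul (d + 1) n = nMul d n + if d + 1 ≤ n then nMul (d + 1) (n - (d + 1)) else 0 := by
  rw [← card_filter_zero_mem_mul d n, ← card_filter_zero_notMem_mul (d + 1) n, nMul]
  exact (Finset.card_filter_add_card_filter_not _).symm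

/-! ### generating functions -/

noncomputable section

/-- `∑_n nSet d n X^n` -/
def gfSet (d : ℕ) : PowerSeries ℚ := PowerSeries.mk fun n => (nSet d n : ℚ)

/-- `∑_n nMul d n X^n` -/
def gfMul (d : ℕ) : PowerSeries ℚ := PowerSeries.mk fun n => (nMul d n : ℚ)

theorem gfSet_zero : gfSet 0 = 1 := by
  ext n
  rw [gfSet, PowerSeries.coeff_mk, nSet_zero, PowerSeries.coeff_one]
  split_ifs <;> simp

theorem gfMul_zero : gfMul 0 = 1 := by
  ext n
  rw [gfMul, PowerSeries.coeff_mk, nMul_zero, PowerSeries.coeff_one]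
  split_ifs <;> simp

theorem gfSet_succ (d : ℕ) :
    gfSet (d + 1) * (1 - PowerSeries.X ^ (d + 1)) = PowerSeries.X ^ d * gfSet d := by
  have h : gfSet (d + 1) =
      PowerSeries.X ^ d * gfSet d + PowerSeries.X ^ (d + 1) * gfSet (d + 1) := by
    ext n
    rw [map_add, PowerSeries.coeff_X_pow_mul', PowerSeries.coeff_X_pow_mul', gfSet, gfSet,
      PowerSeries.coeff_mk, PowerSeries.coeff_mk, PowerSeries.coeff_mk, nSet_succ]
    push_cast
    rfl
  linear_combination h

theorem gfMul_succ (d : ℕ) :
    gfMul (d + 1) * (1 - PowerSeries.X ^ (d + 1)) = gfMul d := by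
  have h : gfMul (d + 1) = gfMul d + PowerSeries.X ^ (d + 1) * gfMul (d + 1) := by
    ext n
    rw [map_add, PowerSeries.coeff_X_pow_mul', gfMul, gfMul,
      PowerSeries.coeff_mk, PowerSeries.coeff_mk, PowerSeries.coeff_mk, nMul_succ]
    push_cast
    rfl
  linear_combination h

end

end Vale.Agent.P066.Lab
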