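import Vale.Agent.P066.Lab.QTDefs
import Vale.Agent.P066.Lab.H180.Count

/-!
# Expansion of the coefficients of the quantum dilogarithms at `u = 1/v = 0`

`toL (epsCoeff false m) = u^m ∑_n nSet m n u^{2n}`, `toL (epsCoeff true m) = ∑_n nMul m n u^{2n}`.
-/

set_option autoImplicit false

open Finset

namespace Vale.Agent.P066.Lab

open Vale.Agent.P066.Theta

noncomputable section

/-- `n ↦ 2 n` -/
def dblHom : ℕ →+ ℤ where
  toFun n := 2 * (n : ℤ)
  map_zero' := by simp
  map_add' a b := by push_cast; ring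

theorem dblHom_apply (n : ℕ) : dblHom n = 2 * (n : ℤ) := rfl

theorem dblHom_injective : Function.Injective dblHom := by
  intro a b h
  simp only [dblHom_apply] at h
  omega

theorem dblHom_le (a b : ℕ) : dblHom a ≤ dblHom b ↔ a ≤ b := by
  simp only [dblHom_apply]
  omega

/-- the ring homomorphism `q ↦ u²` -/
def qS : PowerSeries ℚ →+* LaurentSeries ℚ :=
  (HahnSeries.embDomainRingHom dblHom dblHom_injective dblHom_le).comp
    (HahnSeries.toPowerSeries (R := ℚ)).symm.toRingHom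

theorem qS_coeff (F : PowerSeries ℚ) (n : ℕ) :
    (qS F).coeff (2 * (n : ℤ)) = PowerSeries.coeff n F := by
  have h : (qS F).coeff (dblHom n) = (HahnSeries.toPowerSeries.symm F).coeff n :=
    HahnSeries.embDomain_coeff (f := ⟨⟨dblHom, dblHom_injective⟩, dblHom_le _ _⟩)
  rw [dblHom_apply] at h
  rw [h, HahnSeries.coeff_toPowerSeries_symm]

theorem qS_coeff_notin (F : PowerSeries ℚ) {m : ℤ} (hm : ∀ n : ℕ, m ≠ 2 * (n : ℤ)) :
    (qS F).coeff m = 0 := by
  refine HahnSeries.embDomain_of_notMem_range (f := ⟨⟨dblHom, dblHom_injective⟩, dblHom_le _ _⟩) ?_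
  rintro ⟨n, hn⟩
  exact hm n hn.symm

theorem qS_X : qS PowerSeries.X = uL ^ 2 := by
  have h2 : uL ^ 2 = HahnSeries.single (2 : ℤ) (1 : ℚ) := by
    have := uL_zpow 2
    exact_mod_cast this
  rw [h2]
  ext m
  by_cases hm : ∃ n : ℕ, m = 2 * (n : ℤ)
  · obtain ⟨n, rfl⟩ := hm
    rw [qS_coeff, PowerSeries.coeff_X, HahnSeries.coeff_single]
    by_cases h : n = 1
    · subst h; simp
    · rw [if_neg h, if_neg]; omega
  · push Not at hm
    rw [qS_coeff_notin _ hm, HahnSeries.coeff_single, if_neg]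
    intro h
    exact hm 1 (by rw [h]; norm_num)

theorem qS_injective : Function.Injective qS := by
  intro F G h
  ext n
  rw [← qS_coeff, ← qS_coeff, h]

/-- the Laurent series with coefficient `f n` at `u^{2n}` -/
def hilbL (f : ℕ → ℕ) : LaurentSeries ℚ := qS (PowerSeries.mk fun n => (f n : ℚ))

theorem hilbL_coeff (f : ℕ → ℕ) (n : ℕ) : (hilbL f).coeff (2 * (n : ℤ)) = f n := by
  rw [hilbL, qS_coeff, PowerSeries.coeff_mk]

theorem hilbL_coeff_notin (f : ℕ → ℕ) {m : ℤ} (hm : ∀ n : ℕ, m ≠ 2 * (n : ℤ)) :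
    (hilbL f).coeff m = 0 := qS_coeff_notin _ hm

/-- products of Hilbert series -/
theorem hilbL_mul (f g : ℕ → ℕ) :
    hilbL f * hilbL g = hilbL fun n => ∑ p ∈ antidiagonal n, f p.1 * g p.2 := by
  unfold hilbL
  rw [← map_mul]
  congr 1
  ext n
  rw [PowerSeries.coeff_mul, PowerSeries.coeff_mk]
  push_cast
  refine sum_congr rfl fun p _ => ?_
  rw [PowerSeries.coeff_mk, PowerSeries.coeff_mk]

theorem hilbL_one : hilbL (fun n => if n = 0 then 1 else 0) = 1 := by
  unfold hilbL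
  rw [← map_one qS]
  congr 1
  ext n
  rw [PowerSeries.coeff_mk, PowerSeries.coeff_one]
  by_cases h : n = 0 <;> simp [h]

theorem one_sub_uL_pow_ne_zero (m : ℕ) : (1 : LaurentSeries ℚ) - uL ^ (2 * (m + 1)) ≠ 0 := by
  have h : qS (1 - PowerSeries.X ^ (m + 1)) = 1 - uL ^ (2 * (m + 1)) := by
    rw [map_sub, map_one, map_pow, qS_X, ← pow_mul]
  rw [← h]
  intro h0
  have h1 : (1 - PowerSeries.X ^ (m + 1) : PowerSeries ℚ) = 0 := qS_injective (by rw [h0, map_zero])
  have h2 := congrArg (PowerSeries.coeff 0) h1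
  rw [map_sub, PowerSeries.coeff_X_pow] at h2
  simp at h2

theorem hilbL_nSet_succ (m : ℕ) :
    hilbL (nSet (m + 1)) * (1 - uL ^ (2 * (m + 1))) = uL ^ (2 * m) * hilbL (nSet m) := by
  have h := congrArg qS (gfSet_succ m)
  rw [map_mul, map_mul, map_sub, map_one, map_pow, map_pow, qS_X, ← pow_mul, ← pow_mul] at h
  exact h

theorem hilbL_nMul_succ (m : ℕ) :
    hilbL (nMul (m + 1)) * (1 - uL ^ (2 * (m + 1))) = hilbL (nMul m) := by
  have h := congrArg qS (gfMul_succ m)
  rw [map_mul, map_sub, map_one, map_pow, qS_X, ← pow_mul] at h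
  exact h

theorem hilbL_nSet_zero : hilbL (nSet 0) = 1 := by
  have h := congrArg qS gfSet_zero
  rw [map_one] at h
  exact h

theorem hilbL_nMul_zero : hilbL (nMul 0) = 1 := by
  have h := congrArg qS gfMul_zero
  rw [map_one] at h
  exact h

/-- `∏_{i<m} u^{2i+1}/(1-u^{2i+2}) = u^m ∑_n nSet m n u^{2n}` -/
theorem prod_uL_false (m : ℕ) :
    ∏ i ∈ range m, uL ^ (2 * i + 1) / (1 - uL ^ (2 * (i + 1))) = uL ^ m * hilbL (nSet m) := by
  induction m with
  | zero => rw [prod_range_zero, hilbL_nSet_zero, pow_zero, mul_one]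
  | succ m ih =>
    rw [prod_range_succ, ih]
    have h := hilbL_nSet_succ m
    have h0 := one_sub_uL_pow_ne_zero m
    rw [mul_div_assoc', div_eq_iff h0, mul_assoc (uL ^ (m + 1)), h]
    ring

/-- `∏_{i<m} 1/(1-u^{2i+2}) = ∑_n nMul m n u^{2n}` -/
theorem prod_uL_true (m : ℕ) :
    ∏ i ∈ range m, 1 / (1 - uL ^ (2 * (i + 1))) = hilbL (nMul m) := by
  induction m with
  | zero => rw [prod_range_zero, hilbL_nMul_zero]
  | succ m ih =>
    rw [prod_range_succ, ih]
    have h := hilbL_nMul_succ m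
    have h0 := one_sub_uL_pow_ne_zero m
    rw [mul_one_div, div_eq_iff h0, h]

theorem toL_factor_false (i : ℕ) :
    toL (v / (v ^ (2 * (i + 1)) - 1)) = uL ^ (2 * i + 1) / (1 - uL ^ (2 * (i + 1))) := by
  have hu := uL_ne_zero
  have h0 := one_sub_uL_pow_ne_zero i
  rw [map_div₀, map_sub, map_pow, map_one, toL_v]
  have h1 : (uL⁻¹ : LaurentSeries ℚ) ^ (2 * (i + 1)) - 1 =
      (1 - uL ^ (2 * (i + 1))) * (uL⁻¹) ^ (2 * (i + 1)) := by
    rw [sub_mul, one_mul, ← mul_pow, mul_inv_cancel₀ hu, one_pow]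
  rw [h1, div_eq_div_iff (mul_ne_zero h0 (pow_ne_zero _ (inv_ne_zero hu))) h0]
  have h2 : uL ^ (2 * i + 1) * (uL⁻¹) ^ (2 * (i + 1)) = (uL⁻¹ : LaurentSeries ℚ) := by
    rw [show 2 * (i + 1) = (2 * i + 1) + 1 by ring, pow_succ (uL⁻¹), ← mul_assoc, ← mul_pow,
      mul_inv_cancel₀ hu, one_pow, one_mul]
  calc (uL⁻¹ : LaurentSeries ℚ) * (1 - uL ^ (2 * (i + 1)))
      = (uL ^ (2 * i + 1) * (uL⁻¹) ^ (2 * (i + 1))) * (1 - uL ^ (2 * (i + 1))) := by rw [h2]
    _ = _ := by ring

theorem toL_factor_true (i : ℕ) :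
    toL (v ^ (2 * (i + 1)) / (v ^ (2 * (i + 1)) - 1)) = 1 / (1 - uL ^ (2 * (i + 1))) := by
  have hu := uL_ne_zero
  have h0 := one_sub_uL_pow_ne_zero i
  rw [map_div₀, map_sub, map_pow, map_one, toL_v]
  have h1 : (uL⁻¹ : LaurentSeries ℚ) ^ (2 * (i + 1)) - 1 =
      (1 - uL ^ (2 * (i + 1))) * (uL⁻¹) ^ (2 * (i + 1)) := by
    rw [sub_mul, one_mul, ← mul_pow, mul_inv_cancel₀ hu, one_pow]
  rw [h1, div_eq_div_iff (mul_ne_zero h0 (pow_ne_zero _ (inv_ne_zero hu))) h0]
  ring

/-- **expansion of `Ψ`** -/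
theorem toL_psi (m : ℕ) : toL (psi m) = uL ^ m * hilbL (nSet m) := by
  rw [psi, map_prod, ← prod_uL_false]
  exact prod_congr rfl fun i _ => toL_factor_false i

theorem toL_epsCoeff_false (m : ℕ) : toL (epsCoeff false m) = uL ^ m * hilbL (nSet m) := by
  rw [show epsCoeff false m = psi m by simp [epsCoeff], toL_psi]

theorem toL_epsCoeff_true (m : ℕ) : toL (epsCoeff true m) = hilbL (nMul m) := by
  rw [show epsCoeff true m = ∏ i ∈ range m, v ^ (2 * (i + 1)) / (v ^ (2 * (i + 1)) - 1) by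
    simp [epsCoeff], map_prod, ← prod_uL_true]
  exact prod_congr rfl fun i _ => toL_factor_true i

/-- both types at once: `nEps false = nSet`, `nEps true = nMul` -/
def nEps (e : Bool) : ℕ → ℕ → ℕ := if e then nMul else nSet

theorem toL_epsCoeff (e : Bool) (m : ℕ) :
    toL (epsCoeff e m) = uL ^ (if e then 0 else m) * hilbL (nEps e m) := by
  cases e
  · simpa [nEps] using toL_epsCoeff_false m
  · simpa [nEps] using toL_epsCoeff_true m

/-! ### relation between subsets and multisets: `gfSet d = X^{d(d-1)/2} gfMul d` -/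

theorem gfSet_eq_gfMul (d : ℕ) :
    gfSet d = PowerSeries.X ^ (d * (d - 1) / 2) * gfMul d := by
  induction d with
  | zero => simp [gfSet_zero, gfMul_zero]
  | succ d ih =>
    have h0 : (1 - PowerSeries.X ^ (d + 1) : PowerSeries ℚ) ≠ 0 := by
      intro h1
      have h2 := congrArg (PowerSeries.coeff 0) h1
      rw [map_sub, PowerSeries.coeff_X_pow] at h2
      simp at h2
    refine mul_right_cancel₀ h0 ?_
    have he : (d + 1) * (d + 1 - 1) / 2 = d + d * (d - 1) / 2 := by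
      have : (d + 1) * (d + 1 - 1) = 2 * d + d * (d - 1) := by
        cases d with
        | zero => rfl
        | succ d => simp only [Nat.add_sub_cancel]; ring
      rw [this, Nat.mul_add_div (by norm_num)]
    rw [gfSet_succ, ih, he, mul_assoc, gfMul_succ, pow_add]
    ring

theorem nSet_eq_nMul (d n : ℕ) :
    nSet d n = if d * (d - 1) / 2 ≤ n then nMul d (n - d * (d - 1) / 2) else 0 := by
  have h := congrArg (PowerSeries.coeff n) (gfSet_eq_gfMul d)
  rw [PowerSeries.coeff_X_pow_mul', gfSet, gfMul, PowerSeries.coeff_mk, PowerSeries.coeff_mk] at h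
  exact_mod_cast h

end

end Vale.Agent.P066.Lab
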