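import Vale.Agent.P066.Lab.QT0
import Vale.Agent.P066.Lab.QT1
import Vale.Agent.P066.Lab.QT2
import Vale.Agent.P066.Lab.H180.Hilb

/-!
# QT1: expansion of the coefficients of the ordered product at `u = 1/v = 0`

`toL (Aq a d) = u^{c(d)} ∑_m (hP d m) u^{2m}`, `hP d m` = dimension of the space of antisymmetric
polynomials of degree `m`.
-/

set_option autoImplicit false

open Finset MvPolynomial

namespace Vale.Agent.P066.Lab

open Vale.Agent.P066.Theta

noncomputable section

/-! ### the three versions of the series `∑ f n u^{2n}` -/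

theorem ofPowerSeries_even_eq (f : ℕ → ℕ) :
    HahnSeries.ofPowerSeries ℤ ℚ
      (PowerSeries.mk fun m => if Even m then (f (m / 2) : ℚ) else 0) = hilbL f := by
  ext m
  by_cases hm : ∃ n : ℕ, m = 2 * (n : ℤ)
  · obtain ⟨n, rfl⟩ := hm
    rw [hilbL_coeff]
    have h := HahnSeries.ofPowerSeries_apply_coeff (Γ := ℤ)
      (PowerSeries.mk fun m => if Even m then (f (m / 2) : ℚ) else 0) (2 * n)
    rw [show (2 * (n : ℤ)) = ((2 * n : ℕ) : ℤ) by push_cast; rfl, h, PowerSeries.coeff_mk,
      if_pos (even_two_mul n), Nat.mul_div_cancel_left _ (by norm_num)]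
  · push Not at hm
    rw [hilbL_coeff_notin _ hm]
    by_cases h0 : ∃ n : ℕ, m = (n : ℤ)
    · obtain ⟨n, rfl⟩ := h0
      rw [HahnSeries.ofPowerSeries_apply_coeff, PowerSeries.coeff_mk, if_neg]
      rintro ⟨l, hl⟩
      exact hm l (by rw [hl]; push_cast; ring)
    · rw [HahnSeries.ofPowerSeries_apply]
      refine HahnSeries.embDomain_of_notMem_range ?_
      rintro ⟨n, hn⟩
      exact h0 ⟨n, hn.symm⟩

theorem hser_eq (c : ℤ) (h : ℕ → ℕ) : hser c h = uL ^ c * hilbL h := by
  rw [hser, ofPowerSeries_even_eq]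

/-! ### hypotheses of `toL_Aq` -/

theorem toL_epsCoeff_false' (m : ℕ) :
    toL (epsCoeff false m) = uL ^ (m : ℤ) * hilbL (nSet m) := by
  rw [toL_epsCoeff_false, zpow_natCast]

theorem hilbL_nSet_eq (m : ℕ) : hilbL (nSet m) = uL ^ (m * (m - 1)) * hilbL (nMul m) := by
  have h := congrArg qS (gfSet_eq_gfMul m)
  rw [map_mul, map_pow, qS_X, ← pow_mul] at h
  have h2 : 2 * (m * (m - 1) / 2) = m * (m - 1) := by
    apply Nat.mul_div_cancel'
    cases m with
    | zero => simp
    | succ m =>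
      rw [Nat.add_sub_cancel, mul_comm]
      exact (Nat.even_mul_succ_self m).two_dvd
  rw [h2] at h
  exact h

theorem toL_epsCoeff_true' (m : ℕ) :
    toL (epsCoeff true m) = uL ^ ((m : ℤ) - (m : ℤ) ^ 2) * hilbL (nSet m) := by
  rw [toL_epsCoeff_true, hilbL_nSet_eq, ← mul_assoc, ← zpow_natCast uL (m * (m - 1)),
    ← zpow_add₀ uL_ne_zero]
  have h : (m : ℤ) - (m : ℤ) ^ 2 + ((m * (m - 1) : ℕ) : ℤ) = 0 := by
    cases m with
    | zero => simp
    | succ m =>
      rw [Nat.add_sub_cancel]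
      push_cast
      ring
  rw [h, zpow_zero, one_mul]

/-! ### families of sets -/

section Fams

variable {S I : Type} [Fintype S] [DecidableEq S] [Fintype I] [DecidableEq I]

theorem card_fams (c : S → I) (n : ℕ) :
    (H422.fams c n).card =
      ∑ l ∈ finsuppAntidiag univ n, ∏ i, nSet (H422.fibCard c i) (l i) := by
  classical
  let g : (I → Finset ℕ) → (I →₀ ℕ) := fun F => Finsupp.equivFunOnFinite.symm fun i => ∑ j ∈ F i, j
  have hg : ∀ F ∈ H422.fams c n, g F ∈ finsuppAntidiag (univ : Finset I) n := by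
    intro F hF
    rw [H422.mem_fams] at hF
    rw [mem_finsuppAntidiag]
    exact ⟨hF.2, Finset.subset_univ _⟩
  rw [Finset.card_eq_sum_card_fiberwise hg]
  refine sum_congr rfl fun l hl => ?_
  have h1 : (H422.fams c n).filter (fun F => g F = l) =
      Fintype.piFinset fun i => setFam (H422.fibCard c i) (l i) := by
    ext F
    rw [mem_filter, H422.mem_fams, Fintype.mem_piFinset]
    constructor
    · rintro ⟨⟨h1, _⟩, rfl⟩ i
      rw [mem_setFam]
      exact ⟨h1 i, rfl⟩
    · intro h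
      have h2 : g F = l := by
        ext i
        exact (mem_setFam.1 (h i)).2
      refine ⟨⟨fun i => (mem_setFam.1 (h i)).1, ?_⟩, h2⟩
      rw [mem_finsuppAntidiag] at hl
      rw [← hl.1]
      exact sum_congr rfl fun i _ => (mem_setFam.1 (h i)).2
  rw [h1, Fintype.card_piFinset]
  rfl

theorem mk_card_fams (c : S → I) :
    (PowerSeries.mk fun n => ((H422.fams c n).card : ℚ)) =
      ∏ i, gfSet (H422.fibCard c i) := by
  classical
  ext n
  rw [PowerSeries.coeff_mk, card_fams, PowerSeries.coeff_prod]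
  push_cast
  refine sum_congr rfl fun l _ => prod_congr rfl fun i _ => ?_
  rw [gfSet, PowerSeries.coeff_mk]

theorem hilbL_card_fams (c : S → I) :
    hilbL (fun n => (H422.fams c n).card) = ∏ i, hilbL (nSet (H422.fibCard c i)) := by
  have h := congrArg qS (mk_card_fams c)
  rw [map_prod] at h
  exact h

end Fams

theorem fibCard_fst {n : ℕ} (d : Fin n →₀ ℕ) (i : Fin n) :
    H422.fibCard (Sigma.fst : Pt d → Fin n) i = d i := by
  unfold H422.fibCard
  have h : (univ.filter fun s : Pt d => s.1 = i) =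
      (univ : Finset (Fin (d i))).map ⟨fun x => (⟨i, x⟩ : Pt d), fun x y h => by simpa using h⟩ := by
    ext ⟨j, x⟩
    simp only [mem_filter, mem_univ, true_and, mem_map]
    constructor
    · rintro rfl
      exact ⟨x, rfl⟩
    · rintro ⟨y, hy⟩
      exact (congrArg Sigma.fst hy).symm
  rw [h, card_map, card_univ, Fintype.card_fin]

theorem hP_eq {n : ℕ} (d : Fin n →₀ ℕ) :
    hP d = fun m => (H422.fams (Sigma.fst : Pt d → Fin n) m).card := by
  funext m
  exact H422.finrank_Alt ℚ (Sigma.fst : Pt d → Fin n) m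

theorem hilbL_hP {n : ℕ} (d : Fin n →₀ ℕ) : hilbL (hP d) = ∏ i, hilbL (nSet (d i)) := by
  rw [hP_eq, hilbL_card_fams]
  exact prod_congr rfl fun i _ => by rw [fibCard_fst]

/-- **QT1** -/
theorem toL_Aq_hP {n : ℕ} (a : Fin n → Fin n → ℕ) (hab : ∀ i j, i < j → a i j = 0)
    (h1 : ∀ i, a i i ≤ 1) (d : Fin n →₀ ℕ) : toL (Aq a d) = uL ^ cq a d * hilbL (hP d) := by
  rw [toL_Aq a hab h1 (fun m => hilbL (nSet m)) toL_epsCoeff_false' toL_epsCoeff_true' d, hilbL_hP]

/-- **QT1**, in the form of the interface -/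
theorem qt1out : QT1out := by
  intro n a hab h1 d
  rw [hser_eq]
  exact toL_Aq_hP a hab h1 d

end

end Vale.Agent.P066.Lab
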