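import Vale.Agent.P066.Lab.QT0

/-!
# Antisymmetrisation under type preserving permutations, and disjoint unions of types
-/

set_option autoImplicit false
set_option linter.unusedSectionVars false

open Finset MvPolynomial

namespace Vale.Agent.P066.Lab.HN4

open Vale.Agent.P066.Theta Vale.Agent.P066.Theta.H422

noncomputable section

section Asym

variable (k : Type) [Field k] {S I : Type} [Fintype S] [DecidableEq S] [Fintype I] [DecidableEq I]

/-- antisymmetrisation -/
def asym (c : S → I) : MvPolynomial S k →ₗ[k] MvPolynomial S k :=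
  ∑ σ ∈ TP c, ((Equiv.Perm.sign σ : ℤ) : k) • (rename (R := k) σ).toLinearMap

theorem asym_apply (c : S → I) (f : MvPolynomial S k) :
    asym k c f = ∑ σ ∈ TP c, ((Equiv.Perm.sign σ : ℤ) : k) • rename σ f := by
  simp [asym, LinearMap.sum_apply]

theorem sign_mul_self_cast (σ : Equiv.Perm S) :
    ((Equiv.Perm.sign σ : ℤ) : k) * ((Equiv.Perm.sign σ : ℤ) : k) = 1 := by
  rw [← Int.cast_mul, ← Units.val_mul, Int.units_mul_self]
  simp

theorem asym_mem (c : S → I) (f : MvPolynomial S k) : asym k c f ∈ Alt k c := by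
  intro τ hτ
  have hτ' : ∀ s, c (τ.symm s) = c s := fun s => by
    rw [← hτ (τ.symm s), Equiv.apply_symm_apply]
  rw [asym_apply, map_sum, Finset.smul_sum]
  refine Finset.sum_bij' (fun σ _ => τ * σ) (fun σ _ => τ⁻¹ * σ) ?_ ?_ ?_ ?_ ?_
  · intro σ hσ
    rw [mem_TP] at hσ ⊢
    intro s
    rw [Equiv.Perm.mul_apply, hτ, hσ]
  · intro σ hσ
    rw [mem_TP] at hσ ⊢
    intro s
    rw [Equiv.Perm.mul_apply]
    exact (hτ' _).trans (hσ s)
  · intro σ _
    simp
  · intro σ _
    simp
  · intro σ _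
    rw [map_smul, rename_rename, smul_smul, Equiv.Perm.sign_mul, Units.val_mul, Int.cast_mul,
      ← mul_assoc, sign_mul_self_cast, one_mul]
    rfl

theorem asym_of_mem {c : S → I} {f : MvPolynomial S k} (hf : f ∈ Alt k c) :
    asym k c f = ((TP c).card : k) • f := by
  rw [asym_apply]
  have h : ∀ σ ∈ TP c, ((Equiv.Perm.sign σ : ℤ) : k) • rename σ f = f := by
    intro σ hσ
    rw [mem_TP] at hσ
    rw [hf σ hσ, smul_smul, sign_mul_self_cast, one_smul]
  rw [Finset.sum_congr rfl h, Finset.sum_const, Nat.cast_smul_eq_nsmul]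

theorem card_TP_ne_zero [CharZero k] (c : S → I) : ((TP c).card : k) ≠ 0 := by
  rw [Nat.cast_ne_zero, Finset.card_ne_zero]
  exact ⟨1, by rw [mem_TP]; intro s; rfl⟩

theorem asym_homogeneous (c : S → I) {f : MvPolynomial S k} {n : ℕ}
    (hf : f ∈ homogeneousSubmodule S k n) : asym k c f ∈ homogeneousSubmodule S k n := by
  rw [asym_apply]
  refine Submodule.sum_mem _ fun σ _ => Submodule.smul_mem _ _ ?_
  rw [mem_homogeneousSubmodule] at hf ⊢
  exact hf.rename_isHomogeneous

/-- `f = |TP|⁻¹ asym f` on the alternating polynomials -/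
theorem eq_smul_asym [CharZero k] {c : S → I} {f : MvPolynomial S k} (hf : f ∈ Alt k c) :
    f = ((TP c).card : k)⁻¹ • asym k c f := by
  rw [asym_of_mem k hf, smul_smul, inv_mul_cancel₀ (card_TP_ne_zero k c), one_smul]

end Asym

section Sum

variable (k : Type) [Field k] {A B I I' : Type} [Fintype A] [DecidableEq A] [Fintype B]
  [DecidableEq B] [Fintype I] [DecidableEq I] [Fintype I'] [DecidableEq I']
  (cA : A → I) (cB : B → I')

theorem sumCongr_mem_TP {σA : Equiv.Perm A} {σB : Equiv.Perm B} (hA : σA ∈ TP cA)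
    (hB : σB ∈ TP cB) : Equiv.Perm.sumCongr σA σB ∈ TP (Sum.map cA cB) := by
  rw [mem_TP] at *
  rintro (s | s)
  · simp [hA s]
  · simp [hB s]

theorem exists_sumCongr {σ : Equiv.Perm (A ⊕ B)} (hσ : σ ∈ TP (Sum.map cA cB)) :
    ∃ σA ∈ TP cA, ∃ σB ∈ TP cB, Equiv.Perm.sumCongr σA σB = σ := by
  rw [mem_TP] at hσ
  have hmaps : Set.MapsTo σ (Set.range Sum.inl) (Set.range Sum.inl) := by
    rintro _ ⟨s, rfl⟩
    have h := hσ (Sum.inl s)
    rcases hs : σ (Sum.inl s) with t | t
    · exact ⟨t, rfl⟩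
    · rw [hs] at h
      simp at h
  obtain ⟨⟨σA, σB⟩, h⟩ := Equiv.Perm.mem_sumCongrHom_range_of_perm_mapsTo_inl hmaps
  have h' : Equiv.Perm.sumCongr σA σB = σ := h
  refine ⟨σA, ?_, σB, ?_, h'⟩
  · rw [mem_TP]
    intro s
    have := hσ (Sum.inl s)
    rw [← h'] at this
    simpa using this
  · rw [mem_TP]
    intro s
    have := hσ (Sum.inr s)
    rw [← h'] at this
    simpa using this

theorem sumCongr_injective {σA σA' : Equiv.Perm A} {σB σB' : Equiv.Perm B}
    (h : Equiv.Perm.sumCongr σA σB = Equiv.Perm.sumCongr σA' σB') : σA = σA' ∧ σB = σB' := by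
  have := Equiv.Perm.sumCongrHom_injective (α := A) (β := B) (a₁ := (σA, σB)) (a₂ := (σA', σB')) h
  exact Prod.ext_iff.1 this

/-- antisymmetrisation of a product of polynomials in separate variables -/
theorem asym_mul (f : MvPolynomial A k) (g : MvPolynomial B k) :
    asym k (Sum.map cA cB) (rename Sum.inl f * rename Sum.inr g) =
      rename Sum.inl (asym k cA f) * rename Sum.inr (asym k cB g) := by
  rw [asym_apply, asym_apply, asym_apply, map_sum, map_sum, Finset.sum_mul_sum,
    ← Finset.sum_product']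
  symm
  refine Finset.sum_bij (fun p _ => Equiv.Perm.sumCongr p.1 p.2) ?_ ?_ ?_ ?_
  · intro p hp
    rw [mem_product] at hp
    exact sumCongr_mem_TP cA cB hp.1 hp.2
  · intro p _ p' _ h
    exact Prod.ext_iff.2 (sumCongr_injective h)
  · intro σ hσ
    obtain ⟨σA, hA, σB, hB, h⟩ := exists_sumCongr cA cB hσ
    exact ⟨(σA, σB), mem_product.2 ⟨hA, hB⟩, h⟩
  · intro p _
    rw [map_smul, map_smul, smul_mul_smul_comm, map_mul, rename_rename, rename_rename,
      rename_rename, rename_rename, Equiv.Perm.sign_sumCongr, Units.val_mul, Int.cast_mul]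
    congr 2

/-- products of alternating polynomials in separate variables are alternating -/
theorem mul_mem_Alt [CharZero k] {f : MvPolynomial A k} {g : MvPolynomial B k} (hf : f ∈ Alt k cA)
    (hg : g ∈ Alt k cB) : rename Sum.inl f * rename Sum.inr g ∈ Alt k (Sum.map cA cB) := by
  have h : rename Sum.inl f * rename Sum.inr g =
      (((TP cA).card : k)⁻¹ * ((TP cB).card : k)⁻¹) •
        asym k (Sum.map cA cB) (rename Sum.inl f * rename Sum.inr g) := by
    rw [asym_mul, asym_of_mem k hf, asym_of_mem k hg, map_smul, map_smul, smul_mul_smul_comm,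
      smul_smul]
    have h1 := card_TP_ne_zero k cA
    have h2 := card_TP_ne_zero k cB
    rw [show ((TP cA).card : k)⁻¹ * ((TP cB).card : k)⁻¹ * (((TP cA).card : k) * ((TP cB).card : k))
      = 1 by field_simp, one_smul]
  rw [h]
  exact Submodule.smul_mem _ _ (asym_mem k _ _)

theorem mul_mem_AltH [CharZero k] {f : MvPolynomial A k} {g : MvPolynomial B k} {i j n : ℕ}
    (hf : f ∈ AltH k cA i) (hg : g ∈ AltH k cB j) (hij : i + j = n) :
    rename Sum.inl f * rename Sum.inr g ∈ AltH k (Sum.map cA cB) n := by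
  refine ⟨mul_mem_Alt k cA cB hf.1 hg.1, ?_⟩
  have h1 := hf.2
  have h2 := hg.2
  rw [SetLike.mem_coe, mem_homogeneousSubmodule] at h1 h2 ⊢
  rw [← hij]
  exact h1.rename_isHomogeneous.mul h2.rename_isHomogeneous

/-- the `A`-part of an exponent -/
def exL (μ : A ⊕ B →₀ ℕ) : A →₀ ℕ := μ.comapDomain Sum.inl Sum.inl_injective.injOn

/-- the `B`-part of an exponent -/
def exR (μ : A ⊕ B →₀ ℕ) : B →₀ ℕ := μ.comapDomain Sum.inr Sum.inr_injective.injOn

omit [Fintype A] [DecidableEq A] [Fintype B] [DecidableEq B] in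
theorem exL_add_exR (μ : A ⊕ B →₀ ℕ) :
    (exL μ).mapDomain Sum.inl + (exR μ).mapDomain Sum.inr = μ := by
  ext (s | s)
  · rw [Finsupp.add_apply, Finsupp.mapDomain_apply Sum.inl_injective,
      Finsupp.mapDomain_of_notMem_range, add_zero]
    · rfl
    · simp
  · rw [Finsupp.add_apply, Finsupp.mapDomain_apply Sum.inr_injective,
      Finsupp.mapDomain_of_notMem_range, zero_add]
    · rfl
    · simp

omit [Fintype A] [DecidableEq A] [Fintype B] [DecidableEq B] in
theorem monomial_eq_mul (μ : A ⊕ B →₀ ℕ) :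
    (monomial μ (1 : k)) = rename Sum.inl (monomial (exL μ) 1) * rename Sum.inr (monomial (exR μ) 1) := by
  rw [rename_monomial, rename_monomial, monomial_mul, exL_add_exR, one_mul]

omit [Fintype A] [DecidableEq A] [Fintype B] [DecidableEq B] in
theorem degree_exL_add (μ : A ⊕ B →₀ ℕ) : (exL μ).degree + (exR μ).degree = μ.degree := by
  conv_rhs => rw [← exL_add_exR μ]
  rw [map_add, Finsupp.degree_mapDomain, Finsupp.degree_mapDomain]

/-- the alternating polynomials of degree `n` are spanned by products -/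
theorem AltH_le_span [CharZero k] (n : ℕ) :
    AltH k (Sum.map cA cB) n ≤ Submodule.span k {h | ∃ p ∈ antidiagonal n, ∃ f ∈ AltH k cA p.1,
      ∃ g ∈ AltH k cB p.2, h = rename Sum.inl f * rename Sum.inr g} := by
  intro F hF
  rw [eq_smul_asym k hF.1]
  refine Submodule.smul_mem _ _ ?_
  have h2 := hF.2
  rw [SetLike.mem_coe, mem_homogeneousSubmodule] at h2
  rw [F.as_sum, map_sum]
  refine Submodule.sum_mem _ fun μ hμ => ?_
  have hdeg : μ.degree = n := by
    have := h2 (mem_support_iff.1 hμ)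
    rw [← this, Finsupp.degree_eq_weight_one]
    rfl
  have h3 : monomial μ (coeff μ F) = (coeff μ F) • monomial μ (1 : k) := by
    rw [smul_monomial, smul_eq_mul, mul_one]
  rw [h3, map_smul, monomial_eq_mul, asym_mul]
  refine Submodule.smul_mem _ _ (Submodule.subset_span ?_)
  refine ⟨((exL μ).degree, (exR μ).degree), ?_, _, ⟨asym_mem k cA _, ?_⟩, _,
    ⟨asym_mem k cB _, ?_⟩, rfl⟩
  · rw [HasAntidiagonal.mem_antidiagonal, degree_exL_add, hdeg]
  · refine asym_homogeneous k cA ?_
    rw [mem_homogeneousSubmodule]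
    exact isHomogeneous_monomial _ rfl
  · refine asym_homogeneous k cB ?_
    rw [mem_homogeneousSubmodule]
    exact isHomogeneous_monomial _ rfl

end Sum

end

end Vale.Agent.P066.Lab.HN4
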