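import Vale.Agent.P066.Lab.Defs

/-!
# The ideal `J2` (framed at `s0`) has finite codimension modulo translations

`J2 k a th s0 B = (KX k a B X : X ⊆ B, th X > 0 or (th X = 0, X ≠ ∅, s0 ∉ X))`.

* `sub_mem_radical` : `x_s - x_t ∈ √J2` for `s, t ∈ B`;
* `exists_bound` : every homogeneous `f ∈ k[x_s : s ∈ B]` of large degree with `d_B f ∈ J2` is in `J2`.
-/

set_option autoImplicit false
set_option linter.unusedSectionVars false

open Finset MvPolynomial

namespace Vale.Agent.P066.Lab.Fin180

noncomputable section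

variable {S : Type} [Fintype S] [DecidableEq S]

/-- the ideal for the perturbed stability framed at `s0` -/
def J2 (k : Type) [Field k] (a : S → S → ℕ) (th : S → ℤ) (s0 : S) (B : Finset S) :
    Ideal (MvPolynomial S k) :=
  Ideal.span {f | ∃ X ⊆ B, (0 < wS th X ∨ (wS th X = 0 ∧ X.Nonempty ∧ s0 ∉ X)) ∧ f = KX k a B X}

variable {k : Type} [Field k]
variable {a : S → S → ℕ} {th : S → ℤ} {s0 : S} {B : Finset S}

theorem J0_le_J2 : J0 k a th B ≤ J2 k a th s0 B := by
  refine Ideal.span_mono ?_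
  rintro p ⟨X, h1, h2, h3⟩
  exact ⟨X, h1, Or.inl h2, h3⟩

theorem exists_of_QP_mem {P : Ideal (MvPolynomial S k)} [hP : P.IsPrime] {E : Finset (S × S)}
    (h : QP k a E ∈ P) :
    ∃ p ∈ E, (MvPolynomial.X p.2 - MvPolynomial.X p.1 : MvPolynomial S k) ∈ P := by
  unfold QP at h
  obtain ⟨p, hp, h1⟩ := (hP.prod_mem_iff).1 h
  exact ⟨p, hp, hP.mem_of_pow_mem _ h1⟩

theorem sub_mem_radical (hs0 : s0 ∈ B) (hB : wS th B = 0) {s t : S} (hs : s ∈ B)
    (ht : t ∈ B) :
    (MvPolynomial.X s - MvPolynomial.X t : MvPolynomial S k) ∈ (J2 k a th s0 B).radical := by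
  classical
  rw [Ideal.radical_eq_sInf, Ideal.mem_sInf]
  rintro P ⟨hJ, hP⟩
  -- the class of `s0`
  set L : Finset S := B.filter fun s =>
    (MvPolynomial.X s - MvPolynomial.X s0 : MvPolynomial S k) ∈ P with hL
  have hLB : L ⊆ B := filter_subset _ _
  have memL : ∀ {s}, s ∈ L ↔ s ∈ B ∧
      (MvPolynomial.X s - MvPolynomial.X s0 : MvPolynomial S k) ∈ P := by
    intro s; rw [hL, mem_filter]
  have hsum : wS th (B \ L) + wS th L = 0 := by
    unfold wS at hB ⊢
    rw [sum_sdiff hLB, hB]
  have key : L = B := by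
    by_contra hne
    have hne' : (B \ L).Nonempty := by
      rw [sdiff_nonempty]
      intro h
      exact hne (Subset.antisymm hLB h)
    by_cases h0 : 0 ≤ wS th (B \ L)
    · have hmem : KX k a B (B \ L) ∈ P := by
        apply hJ
        apply Ideal.subset_span
        refine ⟨B \ L, sdiff_subset, ?_, rfl⟩
        rcases h0.lt_or_eq with h | h
        · exact Or.inl h
        · refine Or.inr ⟨h.symm, hne', ?_⟩
          rw [mem_sdiff, not_and_not_right]
          intro _
          rw [memL]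
          exact ⟨hs0, by rw [sub_self]; exact P.zero_mem⟩
      obtain ⟨⟨s, t⟩, hst, h⟩ := exists_of_QP_mem hmem
      obtain ⟨hs, ht⟩ := mem_product.1 hst
      dsimp only at hs ht h
      rw [Finset.sdiff_sdiff_eq_self hLB] at ht
      rw [mem_sdiff] at hs
      apply hs.2
      rw [memL]
      refine ⟨hs.1, ?_⟩
      have h2 := P.sub_mem (memL.1 ht).2 h
      have h3 : (MvPolynomial.X t - MvPolynomial.X s0 : MvPolynomial S k)
          - (MvPolynomial.X t - MvPolynomial.X s) = MvPolynomial.X s - MvPolynomial.X s0 := by ring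
      rwa [h3] at h2
    · have h1 : 0 < wS th L := by omega
      have hmem : KX k a B L ∈ P := by
        apply hJ
        apply Ideal.subset_span
        exact ⟨L, hLB, Or.inl h1, rfl⟩
      obtain ⟨⟨s, t⟩, hst, h⟩ := exists_of_QP_mem hmem
      obtain ⟨hs, ht⟩ := mem_product.1 hst
      dsimp only at hs ht h
      rw [mem_sdiff] at ht
      apply ht.2
      rw [memL]
      refine ⟨ht.1, ?_⟩
      have h2 := P.add_mem (memL.1 hs).2 h
      have h3 : (MvPolynomial.X s - MvPolynomial.X s0 : MvPolynomial S k)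
          + (MvPolynomial.X t - MvPolynomial.X s) = MvPolynomial.X t - MvPolynomial.X s0 := by ring
      rwa [h3] at h2
  rw [← key] at hs ht
  have h2 := P.sub_mem (memL.1 hs).2 (memL.1 ht).2
  have h3 : (MvPolynomial.X s - MvPolynomial.X s0 : MvPolynomial S k)
      - (MvPolynomial.X t - MvPolynomial.X s0) = MvPolynomial.X s - MvPolynomial.X t := by ring
  rwa [h3] at h2

/-- one exponent for all pairs -/
theorem exists_pow_mem (hs0 : s0 ∈ B) (hB : wS th B = 0) :
    ∃ M : ℕ, ∀ s ∈ B,
      (MvPolynomial.X s - MvPolynomial.X s0 : MvPolynomial S k) ^ M ∈ J2 k a th s0 B := by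
  classical
  have h : ∀ s ∈ B, ∃ M : ℕ,
      (MvPolynomial.X s - MvPolynomial.X s0 : MvPolynomial S k) ^ M ∈ J2 k a th s0 B :=
    fun s hs => sub_mem_radical hs0 hB hs hs0
  choose! M hM using h
  refine ⟨B.sup M, fun s hs => ?_⟩
  exact Ideal.pow_mem_of_pow_mem _ (hM s hs) (Finset.le_sup hs)

/-! ### translation -/

/-- the translation `x_s ↦ x_s + u`, `s ∈ B` -/
def tr (B : Finset S) : MvPolynomial S k →ₐ[k] Polynomial (MvPolynomial S k) :=
  aeval fun s => Polynomial.C (MvPolynomial.X s) + if s ∈ B then Polynomial.X else 0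

/-- `∑_{s ∈ B} ∂/∂x_s` -/
def dB (B : Finset S) : Derivation k (MvPolynomial S k) (MvPolynomial S k) :=
  ∑ s ∈ B, pderiv s

theorem dB_apply (f : MvPolynomial S k) : dB B f = ∑ s ∈ B, pderiv s f := by
  unfold dB
  exact congrArg (fun g => g f)
    (map_sum (Derivation.coeFnAddMonoidHom (R := k) (A := MvPolynomial S k)
      (M := MvPolynomial S k)) (fun s => pderiv s) B) |>.trans (Finset.sum_apply _ _ _)

theorem dB_X (s : S) :
    dB B (MvPolynomial.X s : MvPolynomial S k) = if s ∈ B then 1 else 0 := by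
  classical
  rw [dB_apply]
  simp only [pderiv_X, Pi.single_apply]
  rw [Finset.sum_ite_eq]

theorem tr_X (s : S) : tr B (MvPolynomial.X s : MvPolynomial S k) =
    Polynomial.C (MvPolynomial.X s) + if s ∈ B then Polynomial.X else 0 := by
  unfold tr; rw [aeval_X]

theorem tr_sub {s t : S} (hs : s ∈ B) (ht : t ∈ B) :
    tr B (MvPolynomial.X t - MvPolynomial.X s : MvPolynomial S k) =
      Polynomial.C (MvPolynomial.X t - MvPolynomial.X s) := by
  rw [map_sub, tr_X, tr_X, if_pos hs, if_pos ht, Polynomial.C_sub]; ring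

theorem tr_QP {E : Finset (S × S)} (h : ∀ p ∈ E, p.1 ∈ B ∧ p.2 ∈ B) :
    tr B (QP k a E) = Polynomial.C (QP k a E) := by
  unfold QP
  rw [map_prod, map_prod]
  refine prod_congr rfl fun p hp => ?_
  rw [map_pow, map_pow, tr_sub (h p hp).1 (h p hp).2]

theorem tr_KX {X : Finset S} (hX : X ⊆ B) :
    tr B (KX k a B X) = Polynomial.C (KX k a B X) := by
  unfold KX
  refine tr_QP fun p hp => ?_
  obtain ⟨h1, h2⟩ := mem_product.1 hp
  exact ⟨hX h1, (mem_sdiff.1 h2).1⟩

theorem tr_mem_map {f : MvPolynomial S k} (hf : f ∈ J2 k a th s0 B) :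
    tr B f ∈ Ideal.map Polynomial.C (J2 k a th s0 B) := by
  have h : J2 k a th s0 B ≤ Ideal.comap (tr B) (Ideal.map Polynomial.C (J2 k a th s0 B)) := by
    conv_lhs => rw [J2]
    rw [Ideal.span_le]
    rintro p ⟨X, hX, h1, rfl⟩
    rw [SetLike.mem_coe, Ideal.mem_comap, tr_KX hX]
    apply Ideal.mem_map_of_mem
    exact Ideal.subset_span ⟨X, hX, h1, rfl⟩
  exact h hf

theorem coeff_tr_mem {f : MvPolynomial S k} (hf : f ∈ J2 k a th s0 B) (n : ℕ) :
    (tr B f).coeff n ∈ J2 k a th s0 B :=
  (Ideal.mem_map_C_iff.1 (tr_mem_map hf)) n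

/-- `d/du ∘ T = T ∘ d_B` -/
theorem derivative_tr (f : MvPolynomial S k) :
    Polynomial.derivative (tr B f) = tr B (dB B f) := by
  classical
  induction f using MvPolynomial.induction_on with
  | C q =>
    have h : tr B (C q) = Polynomial.C (C q) := by
      rw [← algebraMap_eq, AlgHom.commutes]
      rfl
    rw [h, Polynomial.derivative_C]
    have h2 : dB B (C q) = 0 := by
      rw [← algebraMap_eq]; exact Derivation.map_algebraMap _ _
    rw [h2, map_zero]
  | add p q hp hq => rw [map_add, map_add, map_add, map_add, hp, hq]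
  | mul_X p s hp =>
    rw [map_mul, Polynomial.derivative_mul, hp, Derivation.leibniz, dB_X, tr_X, map_add]
    simp only [smul_eq_mul, map_mul, map_add, tr_X]
    by_cases h : s ∈ B
    · simp only [if_pos h, Polynomial.derivative_C, Polynomial.derivative_X, zero_add, map_one]
      ring
    · simp only [if_neg h, Polynomial.derivative_C, zero_add, map_zero]
      ring

theorem eval_zero_tr (f : MvPolynomial S k) : (tr B f).eval 0 = f := by
  classical
  have h : ((Polynomial.evalRingHom (0 : MvPolynomial S k)).comp (tr B).toRingHom)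
      = RingHom.id _ := by
    apply MvPolynomial.ringHom_ext
    · intro r
      simp [tr, ← algebraMap_eq]
    · intro s
      by_cases hs : s ∈ B <;> simp [tr, hs]
  exact RingHom.congr_fun h f

theorem coeff_zero_tr (f : MvPolynomial S k) : (tr B f).coeff 0 = f := by
  rw [Polynomial.coeff_zero_eq_eval_zero, eval_zero_tr]

theorem coeff_succ_tr_mem [CharZero k] {f : MvPolynomial S k} (hf : dB B f ∈ J2 k a th s0 B) (n : ℕ) :
    (tr B f).coeff (n + 1) ∈ J2 k a th s0 B := by
  have h1 := coeff_tr_mem hf n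
  rw [← derivative_tr, Polynomial.coeff_derivative] at h1
  have h2 : (C (((n : k) + 1)⁻¹) : MvPolynomial S k) * ((tr B f).coeff (n + 1) * ((n : MvPolynomial S k) + 1))
      = (tr B f).coeff (n + 1) := by
    have h3 : ((n : MvPolynomial S k) + 1) = C ((n : k) + 1) := by simp
    rw [h3, mul_comm, mul_assoc, ← C_mul, mul_inv_cancel₀ (Nat.cast_add_one_ne_zero n), C_1, mul_one]
  rw [← h2]
  exact Ideal.mul_mem_left _ _ h1

/-- the substitution `x_s ↦ x_s - x_{s0}` (`s ∈ B`) -/
theorem sub_eval_mem [CharZero k] {f : MvPolynomial S k} (hf : dB B f ∈ J2 k a th s0 B)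
    (y : MvPolynomial S k) : (tr B f).eval y - f ∈ J2 k a th s0 B := by
  rw [Polynomial.eval_eq_sum_range, sum_range_succ', pow_zero, mul_one, coeff_zero_tr,
    add_sub_cancel_right]
  refine Ideal.sum_mem _ fun i _ => ?_
  exact Ideal.mul_mem_right _ _ (coeff_succ_tr_mem hf i)

theorem eval_tr_eq (f : MvPolynomial S k) (y : MvPolynomial S k) :
    (tr B f).eval y = aeval (fun s => MvPolynomial.X s + if s ∈ B then y else 0) f := by
  classical
  have h : ((Polynomial.evalRingHom y).comp (tr B).toRingHom)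
      = (aeval (fun s => MvPolynomial.X s + if s ∈ B then y else 0) :
          MvPolynomial S k →ₐ[k] MvPolynomial S k).toRingHom := by
    apply MvPolynomial.ringHom_ext
    · intro r
      simp [tr, ← algebraMap_eq]
    · intro s
      by_cases hs : s ∈ B <;> simp [tr, hs]
  exact RingHom.congr_fun h f

/-- **(1)+(3)**: homogeneous elements of large degree, killed by `d_B` modulo `J2`, are in `J2`. -/
theorem exists_bound [CharZero k] (hs0 : s0 ∈ B) (hB : wS th B = 0) :
    ∃ D0 : ℕ, ∀ (n : ℕ) (f : MvPolynomial S k), D0 ≤ n → f.IsHomogeneous n →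
      f.vars ⊆ B → dB B f ∈ J2 k a th s0 B → f ∈ J2 k a th s0 B := by
  classical
  obtain ⟨M, hM⟩ := exists_pow_mem (k := k) (a := a) hs0 hB
  refine ⟨B.card * M, fun n f hn hf hv hd => ?_⟩
  have h1 := sub_eval_mem hd (-MvPolynomial.X s0)
  suffices h : (tr B f).eval (-MvPolynomial.X s0) ∈ J2 k a th s0 B by
    have h2 := (J2 k a th s0 B).sub_mem h h1
    rwa [sub_sub_cancel] at h2
  rw [eval_tr_eq, aeval_def, eval₂_eq]
  refine Ideal.sum_mem _ fun m hm => ?_
  apply Ideal.mul_mem_left
  -- the exponent `m` is supported in `B`, of degree `n`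
  have hmB : ∀ s, m s ≠ 0 → s ∈ B := by
    intro s hs
    apply hv
    rw [mem_vars_iff_mem_support]
    exact ⟨m, hm, Finsupp.mem_support_iff.2 hs⟩
  have hdeg : ∑ s ∈ B, m s = n := by
    have h2 := hf (mem_support_iff.1 hm)
    rw [← h2, Finsupp.weight_apply, Finsupp.sum]
    simp only [Pi.one_apply, smul_eq_mul, mul_one]
    symm
    apply sum_subset
    · intro s hs
      exact hmB s (Finsupp.mem_support_iff.1 hs)
    · intro s _ hs
      simpa using hs
  have hex : ∃ s ∈ B, M ≤ m s := by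
    by_contra hcon
    push Not at hcon
    have h3 : ∑ s ∈ B, m s < ∑ s ∈ B, M := sum_lt_sum_of_nonempty ⟨s0, hs0⟩ hcon
    rw [sum_const, smul_eq_mul, hdeg] at h3
    omega
  obtain ⟨s, hs, hsM⟩ := hex
  have h4 : (MvPolynomial.X s + if s ∈ B then -MvPolynomial.X s0 else 0 : MvPolynomial S k) ^ m s
      ∈ J2 k a th s0 B := by
    rw [if_pos hs, ← sub_eq_add_neg]
    exact Ideal.pow_mem_of_pow_mem _ (hM s hs) hsM
  by_cases hms : m s = 0
  · rw [hms, pow_zero] at h4
    rw [(Ideal.eq_top_iff_one _).2 h4]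
    exact Submodule.mem_top
  · exact Ideal.mem_of_dvd _ (dvd_prod_of_mem _ (Finsupp.mem_support_iff.2 hms)) h4

end

end Vale.Agent.P066.Lab.Fin180
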